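import Vale.Agent.P129BN.Elim
import Vale.Agent.P129B.Sum

/-!
# A biorthogonal system which vanishes on `Y` shows that `Y` has infinite codimension
-/

set_option linter.all false

namespace Vale.Agent.P129B

universe v

variable {N : Type v} [ZM N]
variable {K X : Type*} [Field K] [AddCommGroup X] [Module K X] [Coded N K] [Coded N X]
  [Tot N K] [Tot N X] [DefAdd N K] [DefMul N K] [DefAdd N X] [DefSMul N K X]

theorem Bio.not_span {Y : Set X} [Intl N Y] {a : NN N → X} {b : NN N → X → K} [Intl N a]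
    [Intl N b] (h : Bio Y a b) : ¬ ∃ (n : NN N) (w : NN N → X), Intl N w ∧
      ∀ x, ∃ c : NN N → K, Intl N c ∧ x - isum (fun i => c i • w i) n ∈ Y := by
  rintro ⟨n, w, hw, H⟩
  obtain ⟨Z, hZ, h0, h1, h2, h3, h4, x, hx⟩ := h.exists_proper w n
  obtain ⟨c, hc, hc'⟩ := H x
  have h5 : isum (fun i => c i • w i) n ∈ Z :=
    isum_induction (P := fun y => y ∈ Z) (by fun_prop) h0 (fun y z hy hz => h1 y hy z hz)
      (by fun_prop) fun i hi => h2 _ _ (h4 i hi)
  have := h1 _ (h3 hc') _ h5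
  rw [sub_add_cancel] at this
  exact hx this

section Lim

variable {R : Type*} [Field R] [LinearOrder R] [IsStrictOrderedRing R] [Coded N R] [Tot N R]
  [DefLE N R]

/-- Internal Cauchy sequences of a complete ordered field converge. -/
theorem cauchy_lim (lub : ∀ S : Set R, Intl N S → S.Nonempty → BddAbove S → ∃ c, IsLUB S c)
    (s : NN N → R) [Intl N s]
    (h : ∀ ε, 0 < ε → ∃ n, ∀ k l, n < k → n < l → |s k - s l| < ε) :
    ∃ x, ∀ ε, 0 < ε → ∃ n, ∀ k, n < k → |s k - x| < ε := by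
  have key : ∀ (δ : R) (n : NN N), (∀ k l, n < k → n < l → |s k - s l| < δ) → ∀ k, n < k →
      s k - δ ∈ {t | ∃ n, ∀ k, n < k → t ≤ s k} ∧
        s k + δ ∈ upperBounds {t | ∃ n, ∀ k, n < k → t ≤ s k} := by
    intro δ n hn k hk
    refine ⟨⟨n, fun l hl => by linarith [(abs_lt.1 (hn k l hk hl)).2]⟩, ?_⟩
    rintro t ⟨m, hm⟩
    have h1 := NN.lt_add_one (max m n)
    have h2 := hm _ ((le_max_left _ _).trans_lt h1)
    linarith [(abs_lt.1 (hn k _ hk ((le_max_right _ _).trans_lt h1))).1]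
  obtain ⟨n₁, h₁⟩ := h 1 one_pos
  have h₂ := key 1 n₁ h₁ _ (NN.lt_add_one n₁)
  obtain ⟨x, hx⟩ := lub {t | ∃ n, ∀ k, n < k → t ≤ s k} (intl_setOfT (by fun_prop)) ⟨_, h₂.1⟩
    ⟨_, h₂.2⟩
  refine ⟨x, fun ε hε => ?_⟩
  obtain ⟨n, hn⟩ := h (ε / 2) (half_pos hε)
  refine ⟨n, fun k hk => ?_⟩
  obtain ⟨h3, h4⟩ := key _ n hn k hk
  have h5 := hx.1 h3
  have h6 := hx.2 h4
  rw [abs_lt]
  constructor <;> linarith

end Lim

end Vale.Agent.P129B
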