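import Vale.Agent.P129BN.CC
import Vale.Agent.P129BZ.Cls

/-!
# The complex numbers of the model as scalars
-/

set_option linter.all false

namespace Vale.Agent.P129B

universe v

/-- nonnegative elements have square roots -/
class SqR (R : Type*) [Field R] [LinearOrder R] : Prop where
  ex : ∀ x : R, 0 ≤ x → ∃ s, 0 ≤ s ∧ s ^ 2 = x

section

variable {R : Type*} [Field R] [LinearOrder R] [IsStrictOrderedRing R]

open Classical in
noncomputable instance CC.instNm : Nm (CC R) R :=
  ⟨fun z => if h : ∃ s, 0 ≤ s ∧ s ^ 2 = z.re ^ 2 + z.im ^ 2 then h.choose else 0⟩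

theorem CC.nm_spec [SqR R] (z : CC R) : 0 ≤ nm z ∧ nm z ^ 2 = z.re ^ 2 + z.im ^ 2 := by
  have h : ∃ s, 0 ≤ s ∧ s ^ 2 = z.re ^ 2 + z.im ^ 2 := SqR.ex _ (by positivity)
  have e : nm z = h.choose := dif_pos h
  rw [e]
  exact h.choose_spec

noncomputable instance CC.ka [SqR R] : KA R (CC R) where
  re := QuadraticAlgebra.reₗ (-1) 0
  im := QuadraticAlgebra.imₗ (-1) 0
  I := ⟨0, 1⟩
  re_add_im z := by ext <;> simp
  re_one := rfl
  im_one := rfl
  re_I := rfl
  I_cases := Or.inr ⟨by ext <;> simp [QuadraticAlgebra.re_one, QuadraticAlgebra.im_one], rfl⟩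
  nm_nonneg' z := (CC.nm_spec z).1
  nm_sq z := (CC.nm_spec z).2

theorem CC.ka_re [SqR R] (z : CC R) : KA.re z = z.re := rfl
theorem CC.ka_im [SqR R] (z : CC R) : KA.im z = z.im := rfl

variable (N : Type v) [ZM N] [Coded N R] [RF N R]

include N in
/-- Square roots exist in the real numbers of the model. -/
theorem RF.sqR : SqR R := ⟨fun x hx => by
  obtain ⟨s, h1, h2⟩ := RF.lub (N := N) {t : R | 0 ≤ t ∧ t * t ≤ x} (intl_setOfT (by fun_prop))
    ⟨0, le_rfl, by simpa using hx⟩ ⟨x + 1, fun t ht => by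
      by_contra h
      have h := not_le.1 h
      nlinarith [ht.1, ht.2]⟩
  have h0 : 0 ≤ s := h1 ⟨le_rfl, by simpa using hx⟩
  refine ⟨s, h0, le_antisymm (not_lt.1 fun h => ?_) (not_lt.1 fun h => ?_)⟩
  · have hs : 0 < s := by
      rcases h0.lt_or_eq with h3 | h3
      · exact h3
      · rw [← h3] at h; nlinarith
    have h3 : 0 < (s ^ 2 - x) / (2 * s) := div_pos (sub_pos.2 h) (by positivity)
    have h4 : (s ^ 2 - x) / (2 * s) * (2 * s) = s ^ 2 - x := div_mul_cancel₀ _ (by positivity)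
    generalize (s ^ 2 - x) / (2 * s) = d at h3 h4
    have h5 : d < s := by nlinarith
    have h6 : s ≤ s - d := h2 fun t ht => by
      by_contra h7
      have h7 := not_le.1 h7
      nlinarith [ht.1, ht.2]
    linarith
  · have h3 : 0 < (x - s ^ 2) / (2 * s + 1) := div_pos (sub_pos.2 h) (by positivity)
    have h4 : (x - s ^ 2) / (2 * s + 1) * (2 * s + 1) = x - s ^ 2 :=
      div_mul_cancel₀ _ (by positivity)
    generalize (x - s ^ 2) / (2 * s + 1) = d at h3 h4
    have h5 : 0 < min d 1 := lt_min h3 one_pos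
    have h6 := min_le_left d 1
    have h7 := min_le_right d 1
    generalize min d 1 = e at h5 h6 h7
    have h8 : s + e ≤ s := h1 ⟨by positivity, by nlinarith⟩
    linarith⟩

instance CC.kf [SqR R] : KF N R (CC R) where
  defAdd := inferInstance
  defMul := inferInstance
  defRe := DefF.id.ccRe
  defIm := DefF.id.ccIm
  defOfR := defF_ccOf

end

end Vale.Agent.P129B
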