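import Vale.Agent.P129BN.Linf
import Vale.Agent.P129BN.KC
import Vale.Agent.P129BZ.Scal
import Vale.Agent.P129BR.Main

/-!
# Every model of ZFC has infinite-dimensional real and complex Banach spaces
-/

set_option linter.all false

namespace Vale.Agent.P129B

open Vale.Agent.P323.Z Vale.Agent.P129Z.S Vale.Agent.P129BP

universe v

variable {N : Type v} [ZM N]
variable {R : Type*} [Field R] [LinearOrder R] [IsStrictOrderedRing R] [Coded N R] [RF N R]

theorem absV_real : AbsV N (fun a : R => |a|) where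
  d := by fun_prop
  nonneg := abs_nonneg
  zero := abs_zero
  eq0 _ := abs_eq_zero.1
  neg := abs_neg
  mul := abs_mul
  add := abs_add_le
  cmp s hs h := cauchy_lim RF.lub s h

/-- The scalars of the model are complete. -/
theorem cmp_scalars {K : Type*} [Field K] [Algebra R K] [Nm K R] [KA R K] [Coded N K] [KF N R K] :
    Cmp N (nm : K → R) := by
  intro s hs h
  have h1 : Intl N (fun k => KA.re (s k)) := DefF.toIntl (by fun_prop)
  have h2 : Intl N (fun k => KA.im (s k)) := DefF.toIntl (by fun_prop)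
  obtain ⟨a, ha⟩ := cauchy_lim RF.lub (fun k => KA.re (s k)) fun ε hε =>
    (h ε hε).imp fun n hn k l hk hl => by
      rw [← map_sub]; exact (KA.abs_re_le_nm _).trans_lt (hn k l hk hl)
  obtain ⟨b, hb⟩ := cauchy_lim RF.lub (fun k => KA.im (s k)) fun ε hε =>
    (h ε hε).imp fun n hn k l hk hl => by
      rw [← map_sub]; exact (KA.abs_im_le_nm _).trans_lt (hn k l hk hl)
  refine ⟨algebraMap R K a + algebraMap R K b * KA.I, fun ε hε => ?_⟩
  obtain ⟨n, hn⟩ := ha (ε / 2) (half_pos hε)
  obtain ⟨m, hm⟩ := hb (ε / 2) (half_pos hε)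
  refine ⟨max n m, fun k hk => ?_⟩
  have h3 := hn k ((le_max_left _ _).trans_lt hk)
  have h4 := hm k ((le_max_right _ _).trans_lt hk)
  have h5 : s k - (algebraMap R K a + algebraMap R K b * KA.I) =
      algebraMap R K (KA.re (s k) - a) + algebraMap R K (KA.im (s k) - b) * KA.I := by
    conv_lhs => rw [← KA.re_add_im (s k)]
    rw [map_sub, map_sub]; ring
  rw [h5]
  refine (nm_add_le _ _).trans_lt ?_
  rw [KA.nm_mul, KA.nm_ofR, KA.nm_ofR]
  have h6 := mul_le_of_le_one_right (abs_nonneg (KA.im (s k) - b)) (KA.nm_I_le (K := K))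
  linarith

theorem absV_scalars {K : Type*} [Field K] [Algebra R K] [Nm K R] [KA R K] [Coded N K]
    [KF N R K] : AbsV N (nm : K → R) where
  d := by fun_prop
  nonneg := nm_nonneg
  zero := nm_zero
  eq0 _ := nm_eq_zero.1
  neg := nm_neg
  mul := KA.nm_mul
  add := nm_add_le
  cmp := cmp_scalars

theorem CC.isCx [SqR R] : IsCx N (fun a b : R => (⟨a, b⟩ : CC R)) (nm : CC R → R) where
  surj z := ⟨z.re, z.im, rfl⟩
  code _ _ := rfl
  add _ _ _ _ := rfl
  mul a b c d := QuadraticAlgebra.ext (CC.re_mul' _ _) (CC.im_mul' _ _)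
  one := rfl
  nonneg z := (CC.nm_spec z).1
  sq a b := by rw [← sq, ← sq, ← sq]; exact (CC.nm_spec _).2

variable (N)

/-- Every model has an infinite-dimensional real Banach space. -/
theorem exists_infinite_dim_real : ∃ (R : Reals N) (K : Scalars N) (X : Space N),
    IsReals ZM.E R ∧ IsRealScalars ZM.E R K ∧ IsBanach ZM.E R K X ∧ ¬ FiniteDim ZM.E K X := by
  obtain ⟨R₀, h1, h2⟩ := exists_reals (N := N) (R := RR N) RF.lub
  obtain ⟨K₀, h3, h4⟩ := exists_real (by fun_prop) h2
  obtain ⟨X₀, h5, h6⟩ := exists_infinite h2 h4 absV_real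
  exact ⟨R₀, K₀, X₀, h1, h3, h5, h6⟩

/-- Every model has an infinite-dimensional complex Banach space. -/
theorem exists_infinite_dim_complex : ∃ (R : Reals N) (K : Scalars N) (X : Space N),
    IsReals ZM.E R ∧ IsComplexScalars ZM.E R K ∧ IsBanach ZM.E R K X ∧ ¬ FiniteDim ZM.E K X := by
  obtain ⟨R₀, h1, h2⟩ := exists_reals (N := N) (R := RR N) RF.lub
  haveI : SqR (RR N) := RF.sqR N
  obtain ⟨K₀, h3, h4⟩ := exists_complex (K := CC (RR N)) CC.isCx (by fun_prop) h2
  obtain ⟨X₀, h5, h6⟩ := exists_infinite h2 h4 absV_scalars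
  exact ⟨R₀, K₀, X₀, h1, h3, h5, h6⟩

end Vale.Agent.P129B
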