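import Vale.Agent.P129B.Rec

/-!
# Elimination: a biorthogonal system is not contained in the span of finitely many vectors
-/

set_option linter.all false

namespace Vale.Agent.P129B

universe v

variable {N : Type v} [ZM N]
variable {K X : Type*} [Field K] [AddCommGroup X] [Module K X] [Coded N K] [Coded N X]
  [Tot N K] [Tot N X] [DefAdd N K] [DefMul N K] [DefAdd N X] [DefSMul N K X]

/-- `(a, b)` is a biorthogonal system of vectors and linear functionals which vanish on `Y`. -/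
def Bio (Y : Set X) (a : NN N → X) (b : NN N → X → K) : Prop :=
  (∀ i x y, b i (x + y) = b i x + b i y) ∧ (∀ i (c : K) x, b i (c • x) = c * b i x) ∧
    (∀ i, b i (a i) = 1) ∧ (∀ i j, i ≠ j → b i (a j) = 0) ∧ ∀ i, ∀ y ∈ Y, b i y = 0

theorem Bio.step {Y : Set X} {a : NN N → X} {b : NN N → X → K} [Intl N a] [Intl N b]
    (h : Bio Y a b) (w : X) : ∃ (a' : NN N → X) (b' : NN N → X → K), Intl N a' ∧ Intl N b' ∧
      Bio Y a' b' ∧ (∀ i, b' i w = 0) ∧ ∀ x, (∀ i, b i x = 0) → ∀ i, b' i x = 0 := by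
  by_cases h0 : ∀ i, b i w = 0
  · exact ⟨a, b, inferInstance, inferInstance, h, h0, fun _ hx => hx⟩
  push Not at h0
  obtain ⟨i₀, h0⟩ := h0
  obtain ⟨h1, h2, h3, h4, h5⟩ := h
  haveI : DefNeg N K := defNeg_of_add
  haveI : DefSub N K := defSub_of_neg
  haveI : DefInv N K := defInv_of_mul
  haveI : DefDiv N K := defDiv_of_inv
  have hb := DefF.ofIntl2 (N := N) b
  have hs : ∀ i : NN N, i₀ ≠ i₀ + 1 + i := fun i =>
    ((NN.lt_add_one i₀).trans_le le_self_add).ne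
  refine ⟨fun i => a (i₀ + 1 + i), fun i x => b (i₀ + 1 + i) x - b (i₀ + 1 + i) w / b i₀ w * b i₀ x,
    DefF.toIntl (by fun_prop), DefF.toIntl (by fun_prop), ⟨fun i x y => ?_, fun i c x => ?_,
      fun i => ?_, fun i j hij => ?_, fun i y hy => ?_⟩, fun i => ?_, fun x hx i => ?_⟩
  all_goals beta_reduce
  · rw [h1, h1]; ring
  · rw [h2, h2]; ring
  · rw [h3, h4 _ _ (hs i), mul_zero, sub_zero]
  · rw [h4 _ _ (fun e => hij (add_left_cancel e)), h4 _ _ (hs j), mul_zero, sub_zero]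
  · rw [h5 _ y hy, h5 _ y hy, mul_zero, sub_zero]
  · rw [div_mul_cancel₀ _ h0, sub_self]
  · rw [hx, hx, mul_zero, sub_zero]

/-- Given a biorthogonal system and finitely many vectors, some biorthogonal system vanishes at
these vectors. -/
theorem Bio.elim {Y : Set X} [Intl N Y] {a : NN N → X} {b : NN N → X → K} [Intl N a] [Intl N b]
    (h : Bio Y a b) (w : NN N → X) [Intl N w] (n : NN N) :
    ∃ a' : NN N → X, Intl N a' ∧ ∃ b' : NN N → X → K, Intl N b' ∧
      Bio Y a' b' ∧ ∀ k, k < n → ∀ i, b' i (w k) = 0 := by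
  refine NN.ind (P := fun n => ∃ a' : NN N → X, Intl N a' ∧ ∃ b' : NN N → X → K, Intl N b' ∧
      Bio Y a' b' ∧ ∀ k, k < n → ∀ i, b' i (w k) = 0) (by unfold Bio; fun_prop)
    ⟨a, inferInstance, b, inferInstance, h, fun k hk => absurd hk (NN.not_lt_zero' k)⟩ ?_ n
  rintro n ⟨a', ha', b', hb', h1, h2⟩
  obtain ⟨a'', b'', k1, k2, k3, k4, k5⟩ := h1.step (w n)
  refine ⟨a'', k1, b'', k2, k3, fun k hk => ?_⟩
  rcases NN.lt_add_one_cases hk with hk | rfl
  exacts [k5 _ (h2 k hk), k4]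

/-- A proper internal subspace which contains `Y` and the first `n` vectors of `w`. -/
theorem Bio.exists_proper {Y : Set X} [Intl N Y] {a : NN N → X} {b : NN N → X → K} [Intl N a]
    [Intl N b] (h : Bio Y a b) (w : NN N → X) [Intl N w] (n : NN N) :
    ∃ Z : Set X, Intl N Z ∧ (0 : X) ∈ Z ∧ (∀ x ∈ Z, ∀ y ∈ Z, x + y ∈ Z) ∧
      (∀ (c : K), ∀ x ∈ Z, c • x ∈ Z) ∧ Y ⊆ Z ∧ (∀ k, k < n → w k ∈ Z) ∧ ∃ x, x ∉ Z := by
  obtain ⟨a', ha', b', hb', ⟨h1, h2, h3, -, h5⟩, h6⟩ := h.elim w n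
  have hb := DefF.ofIntl2 (N := N) b'
  refine ⟨{x | b' 0 x = 0}, intl_setOfT (by fun_prop), ?_, fun x hx y hy => ?_,
    fun c x hx => ?_, h5 0, fun k hk => h6 k hk 0, a' 0, ?_⟩
  · have := h2 0 0 0
    rwa [zero_smul, zero_mul] at this
  · show b' 0 (x + y) = 0
    rw [h1, hx, hy, add_zero]
  · show b' 0 (c • x) = 0
    rw [h2, hx, mul_zero]
  · show ¬ b' 0 (a' 0) = 0
    rw [h3]; exact one_ne_zero

end Vale.Agent.P129B
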