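import Vale.Agent.P129B.Ops
import Mathlib.Algebra.QuadraticAlgebra.Basic

/-!
# The complex numbers over a coded ordered field
-/

set_option linter.all false

namespace Vale.Agent.P129B

universe v

/-- the complex numbers over `R` -/
abbrev CC (R : Type*) [Field R] : Type _ := QuadraticAlgebra R (-1) 0

instance factCC {R : Type*} [Field R] [LinearOrder R] [IsStrictOrderedRing R] :
    Fact (∀ r : R, r ^ 2 ≠ -1 + 0 * r) := ⟨fun r h => by nlinarith [sq_nonneg r]⟩

variable {N : Type v} [ZM N] {α : Type*} [Coded N α]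
variable {R : Type*} [Field R] [Coded N R]

namespace CC

theorem re_mul' (z w : CC R) : (z * w).re = z.re * w.re - z.im * w.im := by
  rw [QuadraticAlgebra.re_mul]; ring

theorem im_mul' (z w : CC R) : (z * w).im = z.re * w.im + z.im * w.re := by
  rw [QuadraticAlgebra.im_mul]; ring

noncomputable instance coded : Coded N (CC R) :=
  Coded.pull (α := R × R) (fun z => (z.re, z.im))
    (fun _ _ _ _ h => QuadraticAlgebra.ext (Prod.ext_iff.1 h).1 (Prod.ext_iff.1 h).2)
    ((DefF.const True).congrP fun p _ => iff_of_true trivial ⟨⟨p.1, p.2⟩, rfl⟩)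

theorem code_eq (z : CC R) : code N z = op (code N z.re) (code N z.im) := rfl

theorem intl_iff' {z : CC R} : Intl N z ↔ Intl N z.re ∧ Intl N z.im :=
  intl_iff.trans (intl_prod (p := (z.re, z.im)))

theorem defF_reim : DefF N (fun z : CC R => (z.re, z.im)) :=
  ⟨fun _ h => intl_iff.1 h, (DefF.id (N := N) (α := CC R)).2⟩

instance tot [Tot N R] : Tot N (CC R) where
  car := by
    obtain ⟨A, hA⟩ := Bdd.car (N := N) (α := R × R)
    refine ⟨A, fun x => (hA x).trans ⟨?_, ?_⟩⟩
    · rintro ⟨p, hp, rfl⟩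
      exact ⟨⟨p.1, p.2⟩, intl_iff'.2 (intl_prod.1 hp), rfl⟩
    · rintro ⟨z, hz, rfl⟩
      exact ⟨(z.re, z.im), intl_iff.1 hz, rfl⟩
  all z := intl_iff'.2 ⟨inferInstance, inferInstance⟩

end CC

@[fun_prop] theorem DefF.ccRe {f : α → CC R} (hf : DefF N f) : DefF N (fun a => (f a).re) :=
  (CC.defF_reim.comp hf).fst

@[fun_prop] theorem DefF.ccIm {f : α → CC R} (hf : DefF N f) : DefF N (fun a => (f a).im) :=
  (CC.defF_reim.comp hf).snd

theorem defF_cc {f : α → CC R} (h1 : DefF N (fun a => (f a).re)) (h2 : DefF N (fun a => (f a).im)) :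
    DefF N f := ⟨fun a ha => CC.intl_iff'.2 ⟨h1.1 a ha, h2.1 a ha⟩, (h1.pair h2).2⟩

@[fun_prop] theorem DefF.ccMk {f g : α → R} (hf : DefF N f) (hg : DefF N g) :
    DefF N (fun a => (⟨f a, g a⟩ : CC R)) := defF_cc hf hg

instance CC.defAdd [DefAdd N R] : DefAdd N (CC R) :=
  ⟨defF_cc (by simp only [QuadraticAlgebra.re_add]; fun_prop)
    (by simp only [QuadraticAlgebra.im_add]; fun_prop)⟩

instance CC.defMul [Tot N R] [DefAdd N R] [DefMul N R] : DefMul N (CC R) :=
  ⟨defF_cc (by simp only [QuadraticAlgebra.re_mul]; fun_prop)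
    (by simp only [QuadraticAlgebra.im_mul]; fun_prop)⟩

theorem defF_ccOf [Tot N R] : DefF N (fun r : R => algebraMap R (CC R) r) :=
  defF_cc DefF.id (DefF.const 0)

end Vale.Agent.P129B
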