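import Vale.Agent.P129BN.Elim2
import Vale.Agent.P129BZ.Cls
import Vale.Agent.P129BP.Rep2

/-!
# The space of bounded sequences of the model
-/

set_option linter.all false

namespace Vale.Agent.P129B

open Vale.Agent.P323.Z Vale.Agent.P129Z.S Vale.Agent.P129BP

universe v

variable {N : Type v} [ZM N]
variable {R : Type*} [Field R] [LinearOrder R] [IsStrictOrderedRing R] [Coded N R] [RF N R]
variable {K : Type*} [Field K] [Coded N K] [Tot N K] [DefAdd N K] [DefMul N K] {nk : K → R}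

/-- a definable complete absolute value -/
structure AbsV (N : Type v) [ZM N] {R : Type*} [Field R] [LinearOrder R] [Coded N R] {K : Type*}
    [Field K] [Coded N K] (nk : K → R) : Prop where
  d : DefF N nk
  nonneg : ∀ x, 0 ≤ nk x
  zero : nk 0 = 0
  eq0 : ∀ x, nk x = 0 → x = 0
  neg : ∀ x, nk (-x) = nk x
  mul : ∀ x y, nk (x * y) = nk x * nk y
  add : ∀ x y, nk (x + y) ≤ nk x + nk y
  cmp : Cmp N nk

/-- the bounded internal sequences -/
def AbsV.sub (h : AbsV N nk) : Submodule K (NN N → K) where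
  carrier := {f | Intl N f ∧ ∃ c, ∀ n, nk (f n) ≤ c}
  zero_mem' := ⟨intl_const (0 : K), 0, fun _ => h.zero.le⟩
  add_mem' := by
    rintro f g ⟨hf, c, hc⟩ ⟨hg, d, hd⟩
    exact ⟨DefF.toIntl (f := fun n => f n + g n) (by fun_prop), c + d,
      fun n => (h.add _ _).trans (add_le_add (hc n) (hd n))⟩
  smul_mem' := by
    rintro a f ⟨hf, c, hc⟩
    exact ⟨DefF.toIntl (f := fun n => a * f n) (by fun_prop), nk a * c,
      fun n => (h.mul _ _).trans_le (mul_le_mul_of_nonneg_left (hc n) (h.nonneg a))⟩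

/-- the space of bounded internal sequences -/
def Linf (h : AbsV N nk) : Type _ := h.sub

namespace Linf

variable {h : AbsV N nk} {α : Type*} [Coded N α]

instance : AddCommGroup (Linf h) := inferInstanceAs (AddCommGroup h.sub)
instance : Module K (Linf h) := inferInstanceAs (Module K h.sub)

/-- the underlying sequence -/
def val (x : Linf h) : NN N → K := Subtype.val x

theorem ext {x y : Linf h} (e : ∀ n, x.val n = y.val n) : x = y := Subtype.ext (funext e)

theorem val_add (x y : Linf h) (n : NN N) : (x + y).val n = x.val n + y.val n := rfl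
theorem val_sub (x y : Linf h) (n : NN N) : (x - y).val n = x.val n - y.val n := rfl
theorem val_smul (c : K) (x : Linf h) (n : NN N) : (c • x).val n = c * x.val n := rfl
theorem val_zero (n : NN N) : (0 : Linf h).val n = 0 := rfl

instance intl_val (x : Linf h) : Intl N x.val := x.2.1

theorem bdd (x : Linf h) : ∃ c, ∀ n, nk (x.val n) ≤ c := x.2.2

/-- a bounded sequence as a point -/
def mk (f : NN N → K) (hf : Intl N f) (c : R) (hc : ∀ n, nk (f n) ≤ c) : Linf h :=
  Subtype.mk f ⟨hf, c, hc⟩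

noncomputable instance coded : Coded N (Linf h) where
  Int _ := True
  code x := code N x.val
  inj _ _ e := Subtype.ext (code_inj (intl_val _) (intl_val _) e)
  dom := by
    have h0 := h.d
    have h1 : DefF N (fun f : NN N → K => ∃ c : R, ∀ n, nk (f n) ≤ c) := by fun_prop
    refine (defP_iff.1 h1).congr fun x => ⟨?_, ?_⟩
    · rintro ⟨f, hf, rfl, c, hc⟩; exact ⟨mk f hf c hc, trivial, rfl⟩
    · rintro ⟨x, -, rfl⟩; exact ⟨x.val, inferInstance, rfl, x.bdd⟩

instance tot : Tot N (Linf h) where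
  car := by
    have h0 := h.d
    have h1 : Intl N {f : NN N → K | Intl N f ∧ ∃ c : R, ∀ n, nk (f n) ≤ c} :=
      intl_setOf (by fun_prop)
    refine ⟨code N _, fun x => (mem_code_set h1).trans ⟨?_, ?_⟩⟩
    · rintro ⟨f, ⟨hf, c, hc⟩, rfl⟩; exact ⟨mk f hf c hc, ⟨trivial⟩, rfl⟩
    · rintro ⟨x, -, rfl⟩; exact ⟨x.val, ⟨inferInstance, x.bdd⟩, rfl⟩
  all _ := ⟨trivial⟩

theorem defF_val : DefF N (fun x : Linf h => x.val) :=
  ⟨fun x _ => intl_val x, (DefF.id (N := N) (α := Linf h)).2⟩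

@[fun_prop] theorem defF_co {f : α → Linf h} {g : α → NN N} (hf : DefF N f) (hg : DefF N g) :
    DefF N (fun a => (f a).val (g a)) := (defF_val.comp hf).ap hg

theorem defF_of {f : α → Linf h} (H : DefF N (fun p : α × NN N => (f p.1).val p.2)) :
    DefF N f := ⟨fun _ _ => inferInstance, (DefF.lam (fun a n => (f a).val n) H).2⟩

instance : DefAdd N (Linf h) := ⟨defF_of (by simp only [val_add]; fun_prop)⟩
instance : DefSMul N K (Linf h) := ⟨defF_of (by simp only [val_smul]; fun_prop)⟩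

theorem ex_nrm (x : Linf h) : ∃ s : R, (∀ n, nk (x.val n) ≤ s) ∧
    ∀ c, (∀ n, nk (x.val n) ≤ c) → s ≤ c := by
  have h0 := h.d
  obtain ⟨c, hc⟩ := x.bdd
  obtain ⟨s, h1, h2⟩ := RF.lub (N := N) {t : R | ∃ n, t = nk (x.val n)}
    (intl_setOfT (by fun_prop)) ⟨_, 0, rfl⟩ ⟨c, by rintro _ ⟨n, rfl⟩; exact hc n⟩
  exact ⟨s, fun n => h1 ⟨n, rfl⟩, fun c hc => h2 (by rintro _ ⟨n, rfl⟩; exact hc n)⟩

/-- the supremum norm -/
noncomputable def nrm (x : Linf h) : R := (ex_nrm x).choose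

theorem le_nrm (x : Linf h) (n : NN N) : nk (x.val n) ≤ nrm x := (ex_nrm x).choose_spec.1 n

theorem nrm_le {x : Linf h} {c : R} (hc : ∀ n, nk (x.val n) ≤ c) : nrm x ≤ c :=
  (ex_nrm x).choose_spec.2 c hc

theorem defF_nrm : DefF N (nrm : Linf h → R) := by
  have h0 := h.d
  refine defF_of_rel (R := fun (x : Linf h) (s : R) => (∀ n, nk (x.val n) ≤ s) ∧
    ∀ c, (∀ n, nk (x.val n) ≤ c) → s ≤ c) (fun _ _ => inferInstance) (by fun_prop)
    fun x s _ _ => ⟨fun H => le_antisymm (nrm_le H.1) (H.2 _ (le_nrm x)), ?_⟩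
  rintro rfl
  exact ⟨le_nrm x, fun c hc => nrm_le hc⟩

theorem nrm_eq_zero (x : Linf h) (hx : nrm x = 0) : x = 0 :=
  ext fun n => h.eq0 _ (le_antisymm (hx ▸ le_nrm x n) (h.nonneg _))

theorem nrm_add (x y : Linf h) : nrm (x + y) ≤ nrm x + nrm y :=
  nrm_le fun n => (h.add _ _).trans (add_le_add (le_nrm x n) (le_nrm y n))

theorem nrm_smul (c : K) (x : Linf h) : nrm (c • x) = nk c * nrm x := by
  refine le_antisymm (nrm_le fun n => (h.mul _ _).trans_le
    (mul_le_mul_of_nonneg_left (le_nrm x n) (h.nonneg c))) ?_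
  rcases (h.nonneg c).lt_or_eq with h1 | h1
  · rw [← le_div_iff₀' h1]
    refine nrm_le fun n => ?_
    rw [le_div_iff₀' h1, ← h.mul]
    exact le_nrm (c • x) n
  · rw [← h1, zero_mul]
    exact (h.nonneg _).trans (le_nrm _ 0)

theorem cmp : Cmp N (nrm : Linf h → R) := by
  intro s hs H
  have h0 := h.d
  haveI : DefNeg N K := defNeg_of_add
  haveI : DefSub N K := defSub_of_neg
  have h5 : DefF N (fun p : NN N × NN N × K => nk ((s p.1).val p.2.1 - p.2.2)) := by fun_prop
  obtain ⟨x, hx, hx'⟩ := exists_intl_choice (N := N) (R := fun (m : NN N) (y : K) =>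
    ∀ ε : R, 0 < ε → ∃ n, ∀ k, n < k → nk ((s k).val m - y) < ε)
    (DefF.allT (DefF.imp (by fun_prop) (DefF.exT (DefF.allT (DefF.imp (by fun_prop)
      (DefF.lt (by fun_prop) (by fun_prop))))))) fun m => by
      obtain ⟨y, hy⟩ := h.cmp (fun k => (s k).val m) (DefF.toIntl (by fun_prop)) fun ε hε => by
        obtain ⟨n, hn⟩ := H ε hε
        exact ⟨n, fun k l hk hl => (le_nrm (s k - s l) m).trans_lt (hn k l hk hl)⟩
      exact ⟨y, inferInstance, hy⟩
  have key : ∀ ε : R, 0 < ε → ∃ n, ∀ k, n < k → ∀ m, nk ((s k).val m - x m) ≤ ε := by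
    intro ε hε
    obtain ⟨n, hn⟩ := H (ε / 2) (half_pos hε)
    refine ⟨n, fun k hk m => ?_⟩
    obtain ⟨n', hn'⟩ := hx' m (ε / 2) (half_pos hε)
    have h1 := NN.lt_add_one (max n n')
    have h2 := (le_nrm (s k - s (max n n' + 1)) m).trans_lt
      (hn k _ hk ((le_max_left _ _).trans_lt h1))
    have h3 := hn' _ ((le_max_right _ _).trans_lt h1)
    have h4 := h.add ((s k).val m - (s (max n n' + 1)).val m) ((s (max n n' + 1)).val m - x m)
    rw [sub_add_sub_cancel] at h4
    rw [val_sub] at h2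
    linarith
  obtain ⟨n₁, h₁⟩ := key 1 one_pos
  refine ⟨mk x hx (nrm (s (n₁ + 1)) + 1) fun m => ?_, fun ε hε => ?_⟩
  · have h2 := h.add ((s (n₁ + 1)).val m) (-((s (n₁ + 1)).val m - x m))
    rw [h.neg, neg_sub, add_sub_cancel] at h2
    linarith [h₁ _ (NN.lt_add_one n₁) m, le_nrm (s (n₁ + 1)) m]
  · obtain ⟨n, hn⟩ := key (ε / 2) (half_pos hε)
    exact ⟨n, fun k hk => (nrm_le fun m => hn k hk m).trans_lt (half_lt_self hε)⟩

open Classical in
/-- the unit vectors -/
noncomputable def e (h : AbsV N nk) (i : NN N) : Linf h :=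
  mk (fun n => if n = i then 1 else 0) (DefF.toIntl (by fun_prop)) (nk 1) fun n => by
    split_ifs
    exacts [le_rfl, h.zero.trans_le (h.nonneg 1)]

open Classical in
theorem val_e (i n : NN N) : (e h i).val n = if n = i then 1 else 0 := rfl

theorem bio : Bio (∅ : Set (Linf h)) (e h) (fun i x => x.val i) :=
  ⟨fun _ _ _ => rfl, fun _ _ _ => rfl, fun i => (val_e i i).trans (if_pos rfl),
    fun i j hij => (val_e j i).trans (if_neg hij), fun _ _ hy => hy.elim⟩

instance intl_e : Intl N (e h) := DefF.toIntl (defF_of (by simp only [val_e]; fun_prop))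

instance intl_co : Intl N (fun (i : NN N) (x : Linf h) => x.val i) := DefF.toIntl (by fun_prop)

end Linf

/-- A space with a biorthogonal system is not finite-dimensional. -/
theorem not_finiteDim {E : Type*} [AddCommGroup E] [Module K E] [Coded N E] [Tot N E] [DefAdd N E]
    [DefSMul N K E] {ne : E → R} {K₀ : Scalars N} {X₀ : Space N} (hK : RepK K nk K₀)
    (hX : RepX K E ne X₀) {a : NN N → E} {b : NN N → E → K} [Intl N a] [Intl N b]
    (h : Bio ∅ a b) : ¬ FiniteDim ZM.E K₀ X₀ := by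
  rintro ⟨F, h1, h2, h3⟩
  obtain ⟨s, hs, rfl⟩ := hX.car.exists_set h2
  obtain ⟨n, w, hw, rfl⟩ := (isFinite_code hs (0 : E)).1 h1
  obtain ⟨Z, hZ, z0, z1, z2, -, z3, x, hx⟩ := h.exists_proper w n
  refine hx ((code_mem_code hZ inferInstance).1 (h3 (code N Z) ⟨hX.car.sub_code hZ, ?_, ?_, ?_⟩
    ((sub_code_iff hs hZ).2 ?_) _ (hX.car.code_mem x)))
  · rw [hX.zero]; exact (code_mem_code hZ inferInstance).2 z0
  · intro x y hx hy
    obtain ⟨x, hx', rfl⟩ := (mem_code_set hZ).1 hx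
    obtain ⟨y, hy', rfl⟩ := (mem_code_set hZ).1 hy
    rw [hX.add]
    exact (code_mem_code hZ inferInstance).2 (z1 x hx' y hy')
  · intro c x hc hx
    obtain ⟨x, hx', rfl⟩ := (mem_code_set hZ).1 hx
    obtain ⟨c, rfl⟩ := hK.car.exT hc
    rw [hX.smul]
    exact (code_mem_code hZ inferInstance).2 (z2 c x hx')
  · rintro _ ⟨k, hk, rfl⟩
    exact z3 k hk

/-- An infinite-dimensional Banach space over complete scalars. -/
theorem exists_infinite {R₀ : Reals N} {K₀ : Scalars N} (hR : RepR R R₀) (hK : RepK K nk K₀)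
    (h : AbsV N nk) : ∃ X₀, IsBanach ZM.E R₀ K₀ X₀ ∧ ¬ FiniteDim ZM.E K₀ X₀ := by
  obtain ⟨X₀, h1, h2⟩ := exists_space (E := Linf h) hR hK Linf.defF_nrm Linf.nrm_eq_zero
    Linf.nrm_smul Linf.nrm_add Linf.cmp
  exact ⟨X₀, h1, not_finiteDim hK h2 Linf.bio⟩

end Vale.Agent.P129B
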